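import Vale.Agent.P088.R2.H341.S4.Fam
import Vale.Agent.P088.R2.H420.GI

/-!
# P088, stage 4, row P1N: functions whose jets are controlled by the jets of a family
-/

open MeasureTheory Set Filter Topology
open scoped ContDiff Matrix

noncomputable section

namespace Vale.Agent.P088.S4.H341

open Vale.Agent.P088.LR Vale.Agent.P088.LR.U Vale.Agent.P088.LR.H158
open Vale.Agent.P088.PJ
open Vale.Agent.P088.HY.T3 (Eb Ac isCompact_Ac)

variable {n N : ℕ} {ι : Type*} [Fintype ι]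

/-- The sum of the jets up to order `m` of a family. -/
def SJ (f : ι → V n → ℝ) (m : ℕ) (x : V n) : ℝ :=
  ∑ i, ∑ l ∈ Finset.range (m + 1), ‖iteratedFDeriv ℝ l (f i) x‖

theorem SJ_nonneg (f : ι → V n → ℝ) (m : ℕ) (x : V n) : 0 ≤ SJ f m x :=
  Finset.sum_nonneg fun _ _ => Finset.sum_nonneg fun _ _ => norm_nonneg _

theorem SJ_mono (f : ι → V n → ℝ) {m m' : ℕ} (h : m ≤ m') (x : V n) : SJ f m x ≤ SJ f m' x :=
  Finset.sum_le_sum fun _ _ => Finset.sum_le_sum_of_subset_of_nonneg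
    (Finset.range_mono (by omega)) fun _ _ _ => norm_nonneg _

theorem le_SJ (f : ι → V n → ℝ) {l m : ℕ} (h : l ≤ m) (i : ι) (x : V n) :
    ‖iteratedFDeriv ℝ l (f i) x‖ ≤ SJ f m x := by
  calc ‖iteratedFDeriv ℝ l (f i) x‖
      ≤ ∑ l ∈ Finset.range (m + 1), ‖iteratedFDeriv ℝ l (f i) x‖ :=
        Finset.single_le_sum (f := fun l => ‖iteratedFDeriv ℝ l (f i) x‖)
          (fun _ _ => norm_nonneg _) (Finset.mem_range.2 (by omega))
    _ ≤ SJ f m x := Finset.single_le_sum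
        (f := fun i => ∑ l ∈ Finset.range (m + 1), ‖iteratedFDeriv ℝ l (f i) x‖)
          (fun _ _ => Finset.sum_nonneg fun _ _ => norm_nonneg _) (Finset.mem_univ i)

/-- The jets of `F` of order `l` are bounded by the jets of order `≤ l + k` of the family, on the
annulus. -/
def Ctl (f : ι → V n → ℝ) (k : ℕ) (F : V n → ℂ) : Prop :=
  ContDiff ℝ ∞ F ∧ ∀ J : ℕ, ∃ M : ℝ, 0 ≤ M ∧ ∀ x ∈ Ac n (4 / 5) 22, ∀ l ≤ J,
    ‖iteratedFDeriv ℝ l F x‖ ≤ M * SJ f (J + k) x

theorem cda {F : Type*} [NormedAddCommGroup F] [NormedSpace ℝ F] {f : V n → F}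
    (hf : ContDiff ℝ ∞ f) (l : ℕ) (x : V n) : ContDiffAt ℝ l f x :=
  (hf.of_le (by exact_mod_cast le_top)).contDiffAt

theorem Ctl.zero (f : ι → V n → ℝ) (k : ℕ) : Ctl f k fun _ => 0 := by
  refine ⟨contDiff_const, fun J => ⟨0, le_rfl, fun x _ l _ => ?_⟩⟩
  have : iteratedFDeriv ℝ l (fun _ : V n => (0 : ℂ)) = 0 := iteratedFDeriv_zero_fun
  rw [this]
  simp

theorem Ctl.add {f : ι → V n → ℝ} {k : ℕ} {F F' : V n → ℂ} (h : Ctl f k F) (h' : Ctl f k F') :
    Ctl f k fun x => F x + F' x := by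
  refine ⟨h.1.add h'.1, fun J => ?_⟩
  obtain ⟨M, hM, h1⟩ := h.2 J
  obtain ⟨M', hM', h2⟩ := h'.2 J
  refine ⟨M + M', by positivity, fun x hx l hl => ?_⟩
  have e : iteratedFDeriv ℝ l (fun x => F x + F' x) x =
      iteratedFDeriv ℝ l F x + iteratedFDeriv ℝ l F' x :=
    iteratedFDeriv_add_apply' (cda h.1 l x) (cda h'.1 l x)
  rw [e, add_mul]
  exact (norm_add_le _ _).trans (add_le_add (h1 x hx l hl) (h2 x hx l hl))

theorem Ctl.sum {κ : Type*} {f : ι → V n → ℝ} {k : ℕ} {t : Finset κ} {F : κ → V n → ℂ}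
    (h : ∀ i ∈ t, Ctl f k (F i)) : Ctl f k fun x => ∑ i ∈ t, F i x := by
  classical
  induction t using Finset.induction_on with
  | empty => simpa using Ctl.zero f k
  | insert a s ha ih =>
    have h1 := (h a (Finset.mem_insert_self a s)).add
      (ih fun i hi => h i (Finset.mem_insert_of_mem hi))
    simpa [Finset.sum_insert ha] using h1

/-- a bound of the jets of a smooth function on the annulus -/
theorem jets_bd {c : V n → ℂ} (hc : ContDiff ℝ ∞ c) (J : ℕ) : ∃ B : ℝ, 0 ≤ B ∧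
    ∀ x ∈ Ac n (4 / 5) 22, ∀ l ≤ J, ‖iteratedFDeriv ℝ l c x‖ ≤ B := by
  have h : ∀ l : ℕ, ∃ B : ℝ, 0 ≤ B ∧ ∀ x ∈ Ac n (4 / 5) 22, ‖iteratedFDeriv ℝ l c x‖ ≤ B := by
    intro l
    obtain ⟨B, hB⟩ := (isCompact_Ac (n := n) (4 / 5) 22).exists_bound_of_continuousOn
      ((hc.continuous_iteratedFDeriv (m := l) (by exact_mod_cast le_top)).continuousOn)
    exact ⟨max B 0, le_max_right _ _, fun x hx => (hB x hx).trans (le_max_left _ _)⟩
  choose B hB0 hB using h
  refine ⟨∑ l ∈ Finset.range (J + 1), B l, Finset.sum_nonneg fun l _ => hB0 l,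
    fun x hx l hl => (hB l x hx).trans ?_⟩
  exact Finset.single_le_sum (f := B) (fun l _ => hB0 l) (Finset.mem_range.2 (by omega))

theorem Ctl.mul {f : ι → V n → ℝ} {k : ℕ} {F : V n → ℂ} (h : Ctl f k F) {c : V n → ℂ}
    (hc : ContDiff ℝ ∞ c) : Ctl f k fun x => c x * F x := by
  refine ⟨hc.mul h.1, fun J => ?_⟩
  obtain ⟨M, hM, h1⟩ := h.2 J
  obtain ⟨B, hB, h2⟩ := jets_bd hc J
  refine ⟨2 ^ J * (B * M), by positivity, fun x hx l hl => ?_⟩
  refine (norm_iteratedFDeriv_mul_le (n := l) (hc.of_le (m := l) (by exact_mod_cast le_top))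
    (h.1.of_le (m := l) (by exact_mod_cast le_top)) x le_rfl).trans ?_
  have hS := SJ_nonneg f (J + k) x
  calc ∑ i ∈ Finset.range (l + 1), (l.choose i : ℝ) * ‖iteratedFDeriv ℝ i c x‖ *
        ‖iteratedFDeriv ℝ (l - i) F x‖
      ≤ ∑ i ∈ Finset.range (l + 1), (l.choose i : ℝ) * (B * (M * SJ f (J + k) x)) := by
        refine Finset.sum_le_sum fun i hi => ?_
        have hi' : i ≤ l := by have := Finset.mem_range.1 hi; omega
        rw [mul_assoc]
        refine mul_le_mul_of_nonneg_left ?_ (Nat.cast_nonneg _)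
        exact mul_le_mul (h2 x hx i (hi'.trans hl)) (h1 x hx (l - i) (by omega)) (norm_nonneg _) hB
    _ = 2 ^ l * (B * (M * SJ f (J + k) x)) := by
        rw [← Finset.sum_mul]
        congr 1
        exact_mod_cast Nat.sum_range_choose l
    _ ≤ 2 ^ J * (B * (M * SJ f (J + k) x)) := by
        have : (2 : ℝ) ^ l ≤ 2 ^ J := pow_le_pow_right₀ (by norm_num) hl
        exact mul_le_mul_of_nonneg_right this (by positivity)
    _ = 2 ^ J * (B * M) * SJ f (J + k) x := by ring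

theorem Ctl.neg {f : ι → V n → ℝ} {k : ℕ} {F : V n → ℂ} (h : Ctl f k F) :
    Ctl f k fun x => -F x := by
  have := h.mul (c := fun _ => -1) contDiff_const
  simpa using this

theorem Ctl.mono {f : ι → V n → ℝ} {k k' : ℕ} (hk : k ≤ k') {F : V n → ℂ} (h : Ctl f k F) :
    Ctl f k' F := by
  refine ⟨h.1, fun J => ?_⟩
  obtain ⟨M, hM, h1⟩ := h.2 J
  exact ⟨M, hM, fun x hx l hl => (h1 x hx l hl).trans
    (mul_le_mul_of_nonneg_left (SJ_mono f (by omega) x) hM)⟩

theorem Ctl.pd {f : ι → V n → ℝ} {k : ℕ} {F : V n → ℂ} (h : Ctl f k F) (i : Fin n) :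
    Ctl f (k + 1) (LR.pd i F) := by
  have hs : ContDiff ℝ ∞ (fderiv ℝ F) := h.1.fderiv_right (m := ∞) le_rfl
  refine ⟨hs.clm_apply contDiff_const, fun J => ?_⟩
  obtain ⟨M, hM, h1⟩ := h.2 (J + 1)
  refine ⟨M, hM, fun x hx l hl => ?_⟩
  have e1 := norm_iteratedFDeriv_clm_apply_const (𝕜 := ℝ) (n := l) (f := fderiv ℝ F)
    (c := (Pi.single i 1 : V n)) (x := x)
    ((hs.of_le (m := l) (by exact_mod_cast le_top)).contDiffAt) le_rfl
  have e2 : ‖(Pi.single i 1 : V n)‖ = 1 := by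
    rw [Pi.norm_single, norm_one]
  rw [e2, one_mul, norm_iteratedFDeriv_fderiv] at e1
  have e3 := h1 x hx (l + 1) (by omega)
  have e4 : J + 1 + k = J + (k + 1) := by ring
  rw [e4] at e3
  exact e1.trans e3

theorem Ctl.base {f : ι → V n → ℝ} (hf : ∀ i, ContDiff ℝ ∞ (f i)) (i : ι) :
    Ctl f 0 fun x => (f i x : ℂ) := by
  refine ⟨Complex.ofRealCLM.contDiff.comp (hf i), fun J => ⟨1, zero_le_one, fun x _ l hl => ?_⟩⟩
  have e : ‖iteratedFDeriv ℝ l (Complex.ofRealLI ∘ f i) x‖ = ‖iteratedFDeriv ℝ l (f i) x‖ :=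
    Complex.ofRealLI.norm_iteratedFDeriv_comp_left (cda (hf i) l x) le_rfl
  rw [one_mul]
  exact (le_of_eq e).trans (le_SJ f (by omega) i x)

/-- a complex function whose real and imaginary parts belong to the family -/
theorem Ctl.cx {f : ι → V n → ℝ} (hf : ∀ i, ContDiff ℝ ∞ (f i)) {F : V n → ℂ} (i j : ι)
    (h1 : ∀ x, f i x = (F x).re) (h2 : ∀ x, f j x = (F x).im) : Ctl f 0 F := by
  have h := (Ctl.base hf i).add ((Ctl.base hf j).mul (c := fun _ => Complex.I) contDiff_const)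
  have e : F = fun x => (f i x : ℂ) + Complex.I * (f j x : ℂ) := by
    ext x
    rw [h1, h2, mul_comm, Complex.re_add_im]
  rw [e]
  exact h

/-- agreement near the annulus -/
theorem Ctl.congr {f : ι → V n → ℝ} {k : ℕ} {F F' : V n → ℂ} (h : Ctl f k F)
    (hF' : ContDiff ℝ ∞ F') {U : Set (V n)} (hU : IsOpen U) (hA : Ac n (4 / 5) 22 ⊆ U)
    (he : ∀ x ∈ U, F' x = F x) : Ctl f k F' := by
  refine ⟨hF', fun J => ?_⟩
  obtain ⟨M, hM, h1⟩ := h.2 J
  refine ⟨M, hM, fun x hx l hl => ?_⟩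
  have e : F' =ᶠ[𝓝 x] F := Filter.eventually_of_mem (hU.mem_nhds (hA hx)) he
  rw [(Filter.EventuallyEq.iteratedFDeriv (𝕜 := ℝ) e l).eq_of_nhds]
  exact h1 x hx l hl

/-! ### matrices -/

/-- All entries are controlled. -/
def CtM (f : ι → V n → ℝ) (k : ℕ) (M : MC n N) : Prop := ∀ a b, Ctl f k fun x => M x a b

theorem CtM.sm {f : ι → V n → ℝ} {k : ℕ} {M : MC n N} (h : CtM f k M) : SmC M :=
  fun a b => (h a b).1

theorem CtM.mono {f : ι → V n → ℝ} {k k' : ℕ} (hk : k ≤ k') {M : MC n N} (h : CtM f k M) :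
    CtM f k' M := fun a b => (h a b).mono hk

theorem CtM.add {f : ι → V n → ℝ} {k : ℕ} {M M' : MC n N} (h : CtM f k M) (h' : CtM f k M') :
    CtM f k fun x => M x + M' x := fun a b => (h a b).add (h' a b)

theorem CtM.neg {f : ι → V n → ℝ} {k : ℕ} {M : MC n N} (h : CtM f k M) :
    CtM f k fun x => -M x := fun a b => (h a b).neg

theorem CtM.sum {κ : Type*} {f : ι → V n → ℝ} {k : ℕ} {t : Finset κ} {M : κ → MC n N}
    (h : ∀ i ∈ t, CtM f k (M i)) : CtM f k fun x => ∑ i ∈ t, M i x := by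
  intro a b
  have := Ctl.sum (t := t) (F := fun i x => M i x a b) fun i hi => h i hi a b
  simpa [Matrix.sum_apply] using this

theorem CtM.mulL {f : ι → V n → ℝ} {k : ℕ} {M C : MC n N} (h : CtM f k M) (hC : SmC C) :
    CtM f k fun x => C x * M x := by
  intro a b
  simp only [Matrix.mul_apply]
  exact Ctl.sum fun j _ => (h j b).mul (hC a j)

theorem CtM.mulR {f : ι → V n → ℝ} {k : ℕ} {M C : MC n N} (h : CtM f k M) (hC : SmC C) :
    CtM f k fun x => M x * C x := by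
  intro a b
  simp only [Matrix.mul_apply]
  refine Ctl.sum fun j _ => ?_
  have := (h a j).mul (hC j b)
  simpa [mul_comm] using this

theorem CtM.smul {f : ι → V n → ℝ} {k : ℕ} {M : MC n N} (h : CtM f k M) {c : V n → ℝ}
    (hc : ContDiff ℝ ∞ c) : CtM f k fun x => (c x : ℂ) • M x := by
  intro a b
  simp only [Matrix.smul_apply, smul_eq_mul]
  exact (h a b).mul (Complex.ofRealCLM.contDiff.comp hc)

/-- a controlled scalar times a smooth matrix -/
theorem CtM.smulC {f : ι → V n → ℝ} {k : ℕ} {c : V n → ℝ} (h : Ctl f k fun x => (c x : ℂ))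
    {C : MC n N} (hC : SmC C) : CtM f k fun x => (c x : ℂ) • C x := by
  intro a b
  simp only [Matrix.smul_apply, smul_eq_mul]
  have := h.mul (hC a b)
  simpa [mul_comm] using this

theorem CtM.pdm {f : ι → V n → ℝ} {k : ℕ} {M : MC n N} (h : CtM f k M) (i : Fin n) :
    CtM f (k + 1) (pdm i M) := fun a b => (h a b).pd i

theorem CtM.congr {f : ι → V n → ℝ} {k : ℕ} {M M' : MC n N} (h : CtM f k M)
    (hM' : SmC M') {U : Set (V n)} (hU : IsOpen U) (hA : Ac n (4 / 5) 22 ⊆ U)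
    (he : ∀ x ∈ U, M' x = M x) : CtM f k M' := fun a b =>
  (h a b).congr (hM' a b) hU hA fun x hx => by rw [he x hx]

end Vale.Agent.P088.S4.H341
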