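import Vale.Agent.P088.R2.H404.P1b

/-!
# P088, stage 4, row P1N: selection and weighted jets for a finite family of functions
-/

open MeasureTheory Set Filter Topology
open scoped ContDiff Matrix

noncomputable section

namespace Vale.Agent.P088.S4.H341

open Vale.Agent.P088.LR Vale.Agent.P088.HY.T3 Vale.Agent.P088.HY.T4

variable {n : ℕ} {ι : Type*} [Fintype ι]

/-- A finite family of smooth functions which vanish on the matched set. -/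
structure FamZ (f : ι → V n → ℝ) (G : Set (V n)) : Prop where
  oG : IsOpen G
  b1 : Eb 0 1 ⊆ G
  sm : ∀ i, ContDiff ℝ ∞ (f i)
  ze : ∀ i, ∀ x ∈ G, x ∈ Eb (0 : V n) 24 → f i x = 0

/-- The size of the family. -/
def uf (f : ι → V n → ℝ) (x : V n) : ℝ := √(∑ i, f i x ^ 2)

theorem uf_sq (f : ι → V n → ℝ) (x : V n) : uf f x ^ 2 = ∑ i, f i x ^ 2 :=
  Real.sq_sqrt (Finset.sum_nonneg fun _ _ => sq_nonneg _)

theorem uf_entry (f : ι → V n → ℝ) (x : V n) (i : ι) : |f i x| ≤ uf f x :=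
  Real.abs_le_sqrt (Finset.single_le_sum (f := fun i => f i x ^ 2) (fun _ _ => sq_nonneg _)
    (Finset.mem_univ i))

theorem uf_flat {f : ι → V n → ℝ} {G : Set (V n)} (hN : FamZ f G) (hn : 1 ≤ n)
    {σ : ℝ} (hσ : σ ≤ 1) (j : ℕ) : ∃ C : ℝ, ∀ x ∈ Ac n 1 23 ∩ Gᶜ,
    uf f x ≤ C * (-gx n σ x) ^ j := by
  have h1 : ∀ i, ∃ C, 0 ≤ C ∧ ∀ x ∈ Ac n 1 23, |f i x| ≤ C * (√(HY.sq x) - 1) ^ j := by
    intro i
    refine flat j (f i) (hN.sm i) fun x hx => hN.ze i x (hN.b1 hx) ?_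
    rw [mem_Eb0 one_pos] at hx; rw [mem_Eb0 (by norm_num)]; linarith
  choose C hC0 hC using h1
  refine ⟨√(∑ i, C i ^ 2) * 46 ^ j, fun x hx => ?_⟩
  have hx1 := hx.1
  have hg := gx_le hn hσ hx1
  have hr : 0 ≤ √(HY.sq x) - 1 := by linarith [hx1.1]
  have h3 : (√(HY.sq x) - 1) ^ j ≤ 46 ^ j * (-gx n σ x) ^ j := by
    rw [← mul_pow]
    exact pow_le_pow_left₀ hr (by linarith) j
  have h4 : uf f x ≤ √(∑ i, C i ^ 2) * (√(HY.sq x) - 1) ^ j := by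
    unfold uf
    refine Real.sqrt_le_iff.2 ⟨by positivity, ?_⟩
    rw [mul_pow, Real.sq_sqrt (Finset.sum_nonneg fun _ _ => sq_nonneg _), Finset.sum_mul]
    refine Finset.sum_le_sum fun i _ => ?_
    rw [← mul_pow, ← sq_abs]
    exact pow_le_pow_left₀ (abs_nonneg _) (hC i x hx1) 2
  calc uf f x ≤ √(∑ i, C i ^ 2) * (√(HY.sq x) - 1) ^ j := h4
    _ ≤ √(∑ i, C i ^ 2) * (46 ^ j * (-gx n σ x) ^ j) :=
        mul_le_mul_of_nonneg_left h3 (Real.sqrt_nonneg _)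
    _ = _ := by ring

theorem uf_supp {f : ι → V n → ℝ} {G : Set (V n)} (hN : FamZ f G) (hn : 1 ≤ n)
    {σ : ℝ} (hneg : ∀ δ : ℝ, 0 < δ → ∃ x ∈ Eb (e0 n) δ, ∃ i, f i x ≠ 0) {η : ℝ} (hη : 0 < η) :
    ∃ x ∈ Ac n 1 23 ∩ Gᶜ, 0 < uf f x ∧ -η < gx n σ x := by
  obtain ⟨δ, hδ, h1⟩ := gx_near hn σ hη
  obtain ⟨x, hx, i, hne⟩ := hneg (min δ 1) (lt_min hδ one_pos)
  have hx' : HY.sq (x - e0 n) < (min δ 1) ^ 2 := hx
  have hx1 : x ∈ Eb (e0 n) δ := by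
    show HY.sq (x - e0 n) < δ ^ 2
    exact hx'.trans_le (pow_le_pow_left₀ (le_min hδ.le zero_le_one) (min_le_left _ _) 2)
  have hx2 : √(HY.sq x) ≤ 2 := by
    have h2 := rt_sub x (e0 n)
    rw [sq_e0 hn, Real.sqrt_one] at h2
    have h3 : √(HY.sq (x - e0 n)) ≤ 1 := by
      refine Real.sqrt_le_iff.2 ⟨zero_le_one, ?_⟩
      exact hx'.le.trans (pow_le_pow_left₀ (le_min hδ.le zero_le_one) (min_le_right _ _) 2)
    linarith
  have hG : x ∉ G := fun h => hne (hN.ze i x h (by rw [mem_Eb0 (by norm_num)]; linarith))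
  have hx3 : 1 ≤ √(HY.sq x) := by
    by_contra h
    push Not at h
    exact hG (hN.b1 ((mem_Eb0 one_pos).2 h))
  exact ⟨x, ⟨⟨hx3, by linarith⟩, hG⟩, lt_of_lt_of_le (abs_pos.2 hne) (uf_entry f x i),
    (abs_lt.1 (h1 x hx1)).1⟩

theorem uf_cont {f : ι → V n → ℝ} (h : ∀ i, ContDiff ℝ ∞ (f i)) : Continuous (uf f) := by
  unfold uf
  exact Continuous.sqrt (continuous_finsetSum _ fun i _ => (h i).continuous.pow 2)

theorem uf_bd {f : ι → V n → ℝ} (h : ∀ i, ContDiff ℝ ∞ (f i)) (m : ℕ) : ∃ H : ℝ, 1 ≤ H ∧ ∀ i,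
    ∀ x ∈ Ac n 0 24, |f i x| ≤ H ∧ ‖iteratedFDeriv ℝ m (f i) x‖ ≤ H := by
  have hK := isCompact_Ac (n := n) 0 24
  have h : ∀ i, ∃ H : ℝ, 0 ≤ H ∧ ∀ x ∈ Ac n 0 24, |f i x| ≤ H ∧
      ‖iteratedFDeriv ℝ m (f i) x‖ ≤ H := by
    intro i
    obtain ⟨A, hA⟩ := hK.exists_bound_of_continuousOn (h i).continuous.continuousOn
    obtain ⟨B, hB⟩ := hK.exists_bound_of_continuousOn
      (((h i).continuous_iteratedFDeriv (m := m) (by exact_mod_cast le_top)).continuousOn)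
    refine ⟨max (max A B) 0, le_max_right _ _, fun x hx => ⟨?_, ?_⟩⟩
    · exact (hA x hx).trans ((le_max_left _ _).trans (le_max_left _ _))
    · exact (hB x hx).trans ((le_max_right _ _).trans (le_max_left _ _))
  choose H hH0 hH using h
  refine ⟨1 + ∑ i, H i, ?_, fun i x hx => ?_⟩
  · have : 0 ≤ ∑ i, H i := Finset.sum_nonneg fun i _ => hH0 i
    linarith
  · have h1 : H i ≤ ∑ i, H i :=
      Finset.single_le_sum (f := fun i => H i) (fun i _ => hH0 i) (Finset.mem_univ i)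
    exact ⟨(hH i x hx).1.trans (by linarith), (hH i x hx).2.trans (by linarith)⟩

/-- the jets from the localisation -/
theorem fam_jets {f : ι → V n → ℝ} {G : Set (V n)} (hF : FamZ f G)
    {σ q s N : ℝ} (hq : 0 ≤ q) (hs : 0 < s) (hN6 : 6 * (q + 1) ≤ N)
    (hNs : 24 * (q + 1) ^ 2 / s ≤ N) {J m : ℕ} (hm0 : (0 : ℝ) < m)
    (hmJ : J * (N + (q + 1)) ≤ m) (hms : 4 * N * J / s ≤ m) {C₁ Λ H r₁ Cf : ℝ} (hC₁ : 1 ≤ C₁)
    (hw : ∀ (f G : V n → ℝ)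
    (y : V n) (r₁ ρ δ L q N Λ H g : ℝ), 0 < r₁ → r₁ ≤ 1 → 1 ≤ ρ → 0 < δ → δ ≤ 1 → 1 ≤ L → 0 ≤ q →
    q ≤ N → 1 ≤ N → 1 ≤ Λ → 1 ≤ H → J * (N + q) ≤ m →
    ContDiffOn ℝ ∞ f (Metric.ball y r₁) →
    (∀ x ∈ Metric.ball y r₁, |f x| ≤ H ∧ ‖iteratedFDeriv ℝ m f x‖ ≤ H) →
    (∀ x ∈ Metric.ball y r₁, |G x - G y| ≤ Λ * dist x y) →
    (∀ x ∈ Metric.ball y r₁, |f x| * Real.exp (ρ * (G x - g)) ≤
      L * δ * Real.exp (-(ρ * q / N * |G x - g|))) →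
    ∀ j ≤ J, ‖iteratedFDeriv ℝ j f y‖ * Real.exp (ρ * (G y - g)) ≤
      C₁ * (H * L * (ρ * Λ / r₁) ^ J) *
        (δ ^ (1 - (J : ℝ) / m) * Real.exp (-(ρ * (q - 1) / N * |G y - g|))))
    (hΛ : 1 ≤ Λ) (hlip : ∀ y ∈ Ac n (4 / 5) 22, ∀ r : ℝ, 0 < r →
    (n + 1) * r ≤ 1 / 10 → ∀ x ∈ Metric.ball y r, ∀ x' ∈ Metric.ball y r,
    |gx n σ x - gx n σ x'| ≤ Λ * dist x x') (hH : 1 ≤ H) (hbd : ∀ i,
    ∀ x ∈ Ac n 0 24, |f i x| ≤ H ∧
      ‖iteratedFDeriv ℝ m (f i) x‖ ≤ H) (hr0 : 0 < r₁) (hr1 : r₁ ≤ 1)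
    (hnr : (n + 1) * r₁ ≤ 1 / 10) (hCf1 : C₁ * (H * (N * Λ / r₁) ^ J) ≤ Cf) (hCf2 : (J : ℝ) ≤ Cf)
    {R kap Gs δ : ℝ} (hR1 : 1 ≤ R) (hk1 : 1 ≤ kap) (hup : 0 < δ) (hup1 : δ < 1)
    (hke : ∃ m : ℝ, N / 2 ≤ m ∧ m ≤ 2 * N ∧ δ * kap ^ m = 1)
    (hloc : ∀ y ∈ Ac n 1 23 ∩ Gᶜ, uf f y * Real.exp (N * R * (gx n σ y - Gs)) ≤
      δ ^ (1 - 6 / (N / (q + 1)) ^ 2) * Real.exp (-(N * R / (N / (q + 1))) * |gx n σ y - Gs|))
    (i : ι) (l : ℕ) (hl : l ≤ J) (x : V n) (hx : x ∈ Ac n (4 / 5) 22) :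
    ‖iteratedFDeriv ℝ l (f i) x‖ *
      Real.exp (N * R * (gx n σ x - Gs)) ≤
      Cf * R ^ Cf * kap ^ s * δ * Real.exp (-(q * R * |gx n σ x - Gs|)) := by
  have hN1 : 1 ≤ N := by linarith
  have hN0 : 0 < N := by linarith
  have hρ1 : 1 ≤ N * R := by nlinarith
  have hball : ∀ z ∈ Metric.ball x r₁, z ∈ Eb (0 : V n) 23 := by
    intro z hz
    have := (rt_ball hr0.le hz).2
    rw [mem_Eb0 (by norm_num)]
    linarith [hx.2]
  have hball' : ∀ z ∈ Metric.ball x r₁, z ∈ Ac n 0 24 := fun z hz =>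
    ⟨Real.sqrt_nonneg _, ((mem_Eb0 (by norm_num)).1 (hball z hz)).le.trans (by norm_num)⟩
  have hδp : (δ : ℝ) ^ (1 - 6 / (N / (q + 1)) ^ 2) ≤ kap ^ (12 * (q + 1) ^ 2 / N) * δ := by
    have h1 := kap_pow (t := 6 / (N / (q + 1)) ^ 2) hk1 (by positivity) hke
    have h2 : 2 * N * (6 / (N / (q + 1)) ^ 2) = 12 * (q + 1) ^ 2 / N := by
      field_simp
      ring
    rw [h2] at h1
    rw [sub_eq_add_neg, Real.rpow_add hup, Real.rpow_one, mul_comm]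
    exact mul_le_mul_of_nonneg_right h1 hup.le
  have hδJ : (δ : ℝ) ^ (1 - (J : ℝ) / m) ≤ δ * kap ^ (2 * N * (J / m)) := by
    rw [sub_eq_add_neg, Real.rpow_add hup, Real.rpow_one]
    exact mul_le_mul_of_nonneg_left (kap_pow hk1 (by positivity) hke) hup.le
  have hL1 : 1 ≤ kap ^ (12 * (q + 1) ^ 2 / N) := Real.one_le_rpow hk1 (by positivity)
  have hyp : ∀ z ∈ Metric.ball x r₁, |f i z| *
      Real.exp (N * R * (gx n σ z - Gs)) ≤ kap ^ (12 * (q + 1) ^ 2 / N) * δ *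
        Real.exp (-(N * R * (q + 1) / N * |gx n σ z - Gs|)) := by
    intro z hz
    have hzE := hball z hz
    by_cases hzK : z ∈ Ac n 1 23 ∩ Gᶜ
    · have h1 := (hloc z hzK).trans (mul_le_mul_of_nonneg_right hδp (Real.exp_pos _).le)
      have h2 : N * R / (N / (q + 1)) = N * R * (q + 1) / N := by field_simp
      rw [h2] at h1
      refine le_trans (mul_le_mul_of_nonneg_right (uf_entry f z i)
        (Real.exp_pos _).le) (h1.trans (le_of_eq ?_))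
      rw [neg_mul]
    · have h2 : f i z = 0 := by
        have hz24 : z ∈ Eb (0 : V n) 24 := by
          rw [mem_Eb0 (by norm_num)] at hzE ⊢; linarith
        by_cases hzG : z ∈ G
        · exact hF.ze i z hzG hz24
        · have h1 : √(HY.sq z) < 1 := by
            by_contra hcon
            push Not at hcon
            exact hzK ⟨⟨hcon, ((mem_Eb0 (by norm_num)).1 hzE).le⟩, hzG⟩
          exact absurd (hF.b1 ((mem_Eb0 one_pos).2 h1)) hzG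
      rw [h2, abs_zero, zero_mul]
      positivity
  have key := hw (f i) (gx n σ) x r₁ (N * R) δ
    (kap ^ (12 * (q + 1) ^ 2 / N)) (q + 1) N Λ H Gs hr0 hr1 hρ1 hup hup1.le
    hL1 (by linarith) (by linarith) hN1 hΛ hH hmJ
    (hF.sm i).contDiffOn (fun z hz => hbd i z (hball' z hz))
    (fun z hz => hlip x hx r₁ hr0 hnr z hz x (Metric.mem_ball_self hr0)) hyp l hl
  have hCHL : 0 ≤ C₁ * (H * kap ^ (12 * (q + 1) ^ 2 / N) * (N * R * Λ / r₁) ^ J) := by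
    have : 0 < kap := by linarith
    positivity
  have key := key.trans (mul_le_mul_of_nonneg_left
    (mul_le_mul_of_nonneg_right hδJ (Real.exp_pos _).le) hCHL)
  have e2 : N * R * (q + 1 - 1) / N * |gx n σ x - Gs| = q * R * |gx n σ x - Gs| := by
    field_simp; ring
  rw [e2] at key
  refine jet_fin (by linarith) (by linarith) (by positivity) hR1 hk1 hup (Real.exp_pos _).le ?_ ?_
    hCf1 hCf2 key
  · rw [div_le_iff₀ hs] at hNs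
    rw [div_le_div_iff₀ hN0 (by norm_num)]
    linarith
  · rw [div_le_iff₀ hs] at hms
    rw [← mul_div_assoc, div_le_div_iff₀ hm0 (by norm_num)]
    linarith

/-- the selected parameters -/
theorem fam_sel {f : ι → V n → ℝ} {G : Set (V n)} (hF : FamZ f G)
    (hn : 1 ≤ n) {σ : ℝ} (hσ1 : σ ≤ 1)
    (hneg : ∀ δ : ℝ, 0 < δ → ∃ x ∈ Eb (e0 n) δ, ∃ i, f i x ≠ 0)
    {q N : ℝ} (hq : 0 ≤ q) (hN6 : 6 * (q + 1) ≤ N) (C₀ R₀ : ℝ) {η : ℝ} (hη : 0 < η) :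
    ∃ (R kap Gs δ : ℝ) (p : V n), R₀ ≤ R ∧ 1 ≤ R ∧ R ^ C₀ ≤ kap ∧ kap ≤ Real.exp (η * R) ∧
      -η ≤ Gs ∧ p ∈ Ac n 1 (11 / 10) ∧ Gs = gx n σ p ∧ Gs ≤ 0 ∧ 0 < δ ∧ δ < 1 ∧
      δ = uf f p ∧ 1 ≤ kap ∧ δ * kap ^ (N - q / 2) = 1 ∧
      ∀ y ∈ Ac n 1 23 ∩ Gᶜ, uf f y * Real.exp (N * R * (gx n σ y - Gs)) ≤
      δ ^ (1 - 6 / (N / (q + 1)) ^ 2) * Real.exp (-(N * R / (N / (q + 1))) * |gx n σ y - Gs|) := by
  have hN1 : 1 ≤ N := by linarith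
  have hN0 : 0 < N := by linarith
  obtain ⟨Kc, hKc⟩ : ∃ Kc : Set (V n), Kc = Ac n 1 23 ∩ Gᶜ := ⟨_, rfl⟩
  have hK : IsCompact Kc := by
    rw [hKc]; exact (isCompact_Ac 1 23).inter_right hF.oG.isClosed_compl
  have hgc : ContinuousOn (gx n σ) Kc := by
    refine (gx_cd σ).continuousOn.mono fun x hx => ?_
    rw [hKc] at hx
    intro h0
    have h1 : 1 ≤ √(HY.sq x) := hx.1.1
    rw [h0, Real.sqrt_zero] at h1
    linarith
  have hG0 : ∀ p ∈ Kc, gx n σ p ≤ 0 := by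
    intro p hp
    rw [hKc] at hp
    have := gx_le hn hσ1 hp.1 (σ := σ)
    have h1 : 1 ≤ √(HY.sq p) := hp.1.1
    linarith
  have hsupp : ∀ η > 0, ∃ p ∈ Kc, 0 < uf f p ∧ -η < gx n σ p := by
    intro η hη
    rw [hKc]
    exact uf_supp hF hn hneg hη
  have hflat : ∀ j : ℕ, ∃ C : ℝ, ∀ p ∈ Kc, uf f p ≤ C * (-gx n σ p) ^ j := by
    intro j
    rw [hKc]
    exact uf_flat hF hn hσ1 j
  have hN6' : 6 ≤ N / (q + 1) := by
    rw [le_div_iff₀ (by linarith)]; exact hN6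
  obtain ⟨m₂, hm₂⟩ : ∃ m₂ : ℝ, m₂ = N - q / 2 := ⟨_, rfl⟩
  have hm2 : N / 2 ≤ m₂ := by linarith
  have hm2' : m₂ ≤ 2 * N := by linarith
  have hm0 : 0 < m₂ := by linarith
  rw [← hm₂]
  obtain ⟨η', hη'⟩ : ∃ η' : ℝ, η' = min (η / 2) (1 / 500) := ⟨_, rfl⟩
  have hη'0 : 0 < η' := by rw [hη']; exact lt_min (by linarith) (by norm_num)
  have hη'1 : η' ≤ η / 2 := by rw [hη']; exact min_le_left _ _
  have hη'2 : η' ≤ 1 / 500 := by rw [hη']; exact min_le_right _ _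
  obtain ⟨ρ, hρ, p, hp, hup, hup1, hlog, hsm, -, hloc⟩ := R2.H404.exists_selection hK
    (uf_cont hF.sm).continuousOn hgc (fun p _ => Real.sqrt_nonneg _) hG0 hsupp hflat
    hN6' (2 * N * (|C₀| + 1)) (N * max R₀ 1) hη'0
  obtain ⟨δ, hδ⟩ : ∃ δ, δ = uf f p := ⟨_, rfl⟩
  rw [← hδ] at hup hup1 hlog hsm hloc
  obtain ⟨R, hR⟩ : ∃ R, R = ρ / N := ⟨_, rfl⟩
  have hρR : ρ = N * R := by rw [hR]; field_simp
  have hRR : max R₀ 1 ≤ R := by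
    rw [hR, le_div_iff₀ hN0]; linarith
  have hR1 : 1 ≤ R := (le_max_right _ _).trans hRR
  have hR0 : R₀ ≤ R := (le_max_left _ _).trans hRR
  have hρR1 : R ≤ ρ := by rw [hρR]; nlinarith
  have hρ1 : 1 ≤ ρ := hR1.trans hρR1
  obtain ⟨kap, hkap⟩ : ∃ kap : ℝ, kap = δ ^ (-(1 / m₂)) := ⟨_, rfl⟩
  have hk1 : 1 ≤ kap := by
    rw [hkap]
    exact Real.one_le_rpow_of_pos_of_le_one_of_nonpos hup hup1.le
      (by have : 0 < 1 / m₂ := by positivity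
          linarith)
  have hk0 : 0 < kap := by linarith
  have hke : δ * kap ^ m₂ = 1 := by
    rw [hkap, ← Real.rpow_mul hup.le]
    have : -(1 / m₂) * m₂ = -1 := by field_simp
    rw [this, Real.rpow_neg_one]
    exact mul_inv_cancel₀ hup.ne'
  have hlk : Real.log kap = Real.log (1 / δ) / m₂ := by
    rw [hkap, Real.log_rpow hup, one_div, one_div, Real.log_inv]; ring
  have hlρ : 0 ≤ Real.log ρ := Real.log_nonneg hρ1
  have hld : 0 ≤ Real.log (1 / δ) := by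
    rw [one_div, Real.log_inv]
    have := Real.log_nonpos hup.le hup1.le
    linarith
  obtain ⟨Gs, hGs⟩ : ∃ Gs, Gs = gx n σ p := ⟨_, rfl⟩
  rw [← hGs] at hsm hloc
  have hGs0 : Gs ≤ 0 := by rw [hGs]; exact hG0 p hp
  have hGη : -η' ≤ Gs := by
    have h1 : ρ * (-Gs) ≤ η' * ρ := by linarith
    have h2 : ρ * (-Gs) ≤ ρ * η' := by linarith
    have h3 := le_of_mul_le_mul_left h2 (by linarith : (0 : ℝ) < ρ)
    linarith
  have hpm : p ∈ Ac n 1 23 := by rw [hKc] at hp; exact hp.1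
  refine ⟨R, kap, Gs, δ, p, hR0, hR1, ?_, ?_, by linarith, ⟨hpm.1, ?_⟩, hGs, hGs0, hup, hup1,
    hδ, hk1, hke, ?_⟩
  · rw [← Real.log_le_log_iff (by positivity) hk0, Real.log_rpow (by linarith), hlk,
      le_div_iff₀ (by positivity)]
    have h1 : Real.log R ≤ Real.log ρ := Real.log_le_log (by linarith) hρR1
    have h2 : 0 ≤ Real.log R := Real.log_nonneg hR1
    have h3 : C₀ * Real.log R ≤ (|C₀| + 1) * Real.log ρ := by
      calc C₀ * Real.log R ≤ |C₀| * Real.log R := by gcongr; exact le_abs_self _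
        _ ≤ |C₀| * Real.log ρ := by gcongr
        _ ≤ (|C₀| + 1) * Real.log ρ := by nlinarith
    have h4 : 0 ≤ (|C₀| + 1) * Real.log ρ := by positivity
    calc C₀ * Real.log R * m₂ ≤ (|C₀| + 1) * Real.log ρ * m₂ := by gcongr
      _ ≤ (|C₀| + 1) * Real.log ρ * (2 * N) := by gcongr
      _ = 2 * N * (|C₀| + 1) * Real.log ρ := by ring
      _ ≤ _ := hlog
  · rw [← Real.log_le_iff_le_exp hk0, hlk, div_le_iff₀ (by positivity)]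
    have h1 : Real.log (1 / δ) ≤ η' * ρ := by
      have : 0 ≤ ρ * (-Gs) := by
        apply mul_nonneg <;> linarith
      linarith
    rw [hρR] at h1
    have h2 : η' * (N * R) ≤ η * R * m₂ := by
      have h3 : 0 ≤ N * R := by positivity
      calc η' * (N * R) ≤ η / 2 * (N * R) := by gcongr
        _ = η * R * (N / 2) := by ring
        _ ≤ η * R * m₂ := by gcongr
    linarith
  · have h1 := gx_le hn hσ1 hpm (σ := σ)
    rw [← hGs] at h1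
    linarith
  · intro y hy
    have h1 := hloc y (by rw [hKc]; exact hy)
    rw [hρR] at h1
    exact h1

/-- **Selection for a finite family.** -/
theorem fam {n : ℕ} (hn : 1 ≤ n) {σ : ℝ} (hσ1 : σ ≤ 1) {q s N : ℝ} (hq : 0 ≤ q) (hs : 0 < s)
    (hN : 6 * (q + 1) + 24 * (q + 1) ^ 2 / s ≤ N) (J : ℕ) {f : ι → V n → ℝ} {G : Set (V n)}
    (hF : FamZ f G) (hneg : ∀ δ : ℝ, 0 < δ → ∃ x ∈ Eb (e0 n) δ, ∃ i, f i x ≠ 0) :
    ∃ C : ℝ, 0 ≤ C ∧ ∀ C₀ R₀ η : ℝ, 0 < η → ∃ (R kap Gs δ : ℝ) (ps : V n), R₀ ≤ R ∧ 1 ≤ R ∧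
      R ^ C₀ ≤ kap ∧ kap ≤ Real.exp (η * R) ∧ -η ≤ Gs ∧ δ * kap ^ (N - q / 2) = 1 ∧
      ps ∈ Ac n 1 (11 / 10) ∧ Gs = gx n σ ps ∧ Gs ≤ 0 ∧ 0 < δ ∧ δ < 1 ∧
      ∑ i, f i ps ^ 2 = δ ^ 2 ∧ 1 ≤ kap ∧
      (∃ m : ℝ, N / 2 ≤ m ∧ m ≤ 2 * N ∧ δ * kap ^ m = 1) ∧
      ∀ i, ∀ l ≤ J, ∀ x ∈ Ac n (4 / 5) 22, ‖iteratedFDeriv ℝ l (f i) x‖ *
        Real.exp (N * R * (gx n σ x - Gs)) ≤
        C * R ^ C * kap ^ s * δ * Real.exp (-(q * R * |gx n σ x - Gs|)) := by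
  have hs' : 0 ≤ 24 * (q + 1) ^ 2 / s := by positivity
  have hN6 : 6 * (q + 1) ≤ N := by linarith
  have hNs : 24 * (q + 1) ^ 2 / s ≤ N := by linarith
  have hN1 : 1 ≤ N := by linarith
  obtain ⟨m, hm⟩ := exists_nat_ge (max (max (J * (N + (q + 1))) (4 * N * J / s)) 1)
  have hm1 : 1 ≤ m := by
    have : (1 : ℝ) ≤ m := (le_max_right _ _).trans hm
    exact_mod_cast this
  have hmJ : J * (N + (q + 1)) ≤ m := (le_max_left _ _).trans ((le_max_left _ _).trans hm)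
  have hms : 4 * N * J / s ≤ m := (le_max_right _ _).trans ((le_max_left _ _).trans hm)
  have hm0 : (0 : ℝ) < m := by exact_mod_cast hm1
  obtain ⟨C₁, hC₁, hw⟩ := R2.H404.winterp (E := V n) m J hm1
  obtain ⟨Λ, hΛ, hlip⟩ := gx_lip (n := n) σ
  obtain ⟨H, hH, hbd⟩ := uf_bd hF.sm m
  obtain ⟨r₁, hr₁⟩ : ∃ r₁ : ℝ, r₁ = 1 / (10 * (n + 1)) := ⟨_, rfl⟩
  have hn0 : (0 : ℝ) ≤ n := Nat.cast_nonneg n
  have hr0 : 0 < r₁ := by rw [hr₁]; positivity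
  have hr1 : r₁ ≤ 1 := by
    rw [hr₁, div_le_one (by positivity)]; nlinarith
  have hnr : (n + 1) * r₁ ≤ 1 / 10 := by
    rw [hr₁]
    have : ((n : ℝ) + 1) * (1 / (10 * (n + 1))) = 1 / 10 := by field_simp
    linarith
  obtain ⟨Cf, hCf⟩ : ∃ Cf : ℝ, Cf = max (C₁ * (H * (N * Λ / r₁) ^ J)) J := ⟨_, rfl⟩
  have hCf1 : C₁ * (H * (N * Λ / r₁) ^ J) ≤ Cf := by rw [hCf]; exact le_max_left _ _
  have hCf2 : (J : ℝ) ≤ Cf := by rw [hCf]; exact le_max_right _ _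
  refine ⟨Cf, (Nat.cast_nonneg _).trans hCf2, fun C₀ R₀ η hη => ?_⟩
  obtain ⟨R, kap, Gs, δ, p, hR0, hR1, h1, h2, h3, h4, h5, h6, h7, h8, h9, h10, h11, h12⟩ :=
    fam_sel hF hn (σ := σ) hσ1 hneg hq hN6 C₀ R₀ hη
  have hm : ∃ m : ℝ, N / 2 ≤ m ∧ m ≤ 2 * N ∧ δ * kap ^ m = 1 :=
    ⟨N - q / 2, by linarith, by linarith, h11⟩
  refine ⟨R, kap, Gs, δ, p, hR0, hR1, h1, h2, h3, h11, h4, h5, h6, h7, h8, ?_, h10, hm, ?_⟩
  · rw [h9, uf_sq]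
  · exact fun i l hl x hx => fam_jets hF hq hs hN6 hNs hm0 hmJ hms hC₁ hw hΛ hlip hH hbd hr0 hr1
      hnr hCf1 hCf2 hR1 h10 h7 h8 hm h12 i l hl x hx

end Vale.Agent.P088.S4.H341
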