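import Vale.Agent.P088.R2.H341.S4.Ctl
import Vale.Agent.P088.R2.H455.S4.SpecB

/-!
# P088, stage 4, row P1N: selection for the data of two pairs
-/

open MeasureTheory Set Filter Topology
open scoped ContDiff Matrix

noncomputable section

namespace Vale.Agent.P088.S4.H341

open Vale.Agent.P088.LR Vale.Agent.P088.LR.U Vale.Agent.P088.LR.H158
open Vale.Agent.P088.PJ
open Vale.Agent.P088.HY.T3 (Eb e0 Ac mem_Eb0 isOpen_Eb rt_sub)
open Vale.Agent.P088.HY.T4 (gx sq_e0)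

variable {n N : ℕ}

/-- Real part (`true`) or imaginary part (`false`). -/
def ri (c : Bool) (z : ℂ) : ℝ := if c then z.re else z.im

theorem ri_zero (c : Bool) : ri c 0 = 0 := by unfold ri; split <;> simp

theorem ri_cd {c : Bool} {F : V n → ℂ} (hF : ContDiff ℝ ∞ F) : ContDiff ℝ ∞ fun x => ri c (F x) := by
  cases c
  · exact Complex.imCLM.contDiff.comp hF
  · exact Complex.reCLM.contDiff.comp hF

theorem ri_sum (z : ℂ) : ∑ c, ri c z ^ 2 = ‖z‖ ^ 2 := by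
  rw [Complex.sq_norm, Complex.normSq_apply, Fintype.sum_bool]
  simp only [ri, if_true]
  rw [if_neg (by simp)]
  ring

theorem ri_eq_zero {z : ℂ} (h : ∀ c, ri c z = 0) : z = 0 := by
  have h1 := h true
  have h2 := h false
  simp only [ri, if_true] at h1
  rw [ri, if_neg (by simp)] at h2
  exact Complex.ext h1 h2

/-- The indices of the family. -/
abbrev Ix (n N : ℕ) : Type := (Fin n × Fin n) ⊕ ((Fin N × Fin N × Bool) ⊕
  ((Fin n × Fin N × Fin N × Bool) ⊕ (Fin n × Fin n × Fin N × Fin N × Bool)))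

/-- All real and imaginary parts of the entries of `s₂ - s₁`, `P₂ - P₁`, `D_a`, `∂_i D_a`. -/
def fm (d : PD n N) : Ix n N → V n → ℝ
  | .inl p => fun x => d.s₂ x p.1 p.2 - d.s₁ x p.1 p.2
  | .inr (.inl p) => fun x => ri p.2.2 ((d.P₂ x - d.P₁ x) p.1 p.2.1)
  | .inr (.inr (.inl p)) => fun x => ri p.2.2.2 (d.D p.1 x p.2.1 p.2.2.1)
  | .inr (.inr (.inr p)) => fun x => ri p.2.2.2.2 (pdm p.2.1 (d.D p.1) x p.2.2.1 p.2.2.2.1)

theorem fm_sum (d : PD n N) (x : V n) :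
    ∑ i, fm d i x ^ 2 = U0 d.s₁ d.s₂ d.P₁ d.P₂ d.D x := by
  unfold U0 hh d0 d1 nq
  simp only [Fintype.sum_sum_type, Fintype.sum_prod_type, fm, ri_sum]
  ring

section

variable {k : ℕ} {ε : ℝ} {d : PD n N} {G : Set (V n)}

theorem fm_sm (h : NrmN k ε d G) (i : Ix n N) : ContDiff ℝ ∞ (fm d i) := by
  have h1 := h.rp.rl
  match i with
  | .inl p => exact (h1.d₂.ss p.1 p.2).sub (h1.d₁.ss p.1 p.2)
  | .inr (.inl p) =>
    refine ri_cd ?_
    simp only [Matrix.sub_apply]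
    exact (h1.d₂.sP p.1 p.2.1).sub (h1.d₁.sP p.1 p.2.1)
  | .inr (.inr (.inl p)) => exact ri_cd (h1.sD p.1 p.2.1 p.2.2.1)
  | .inr (.inr (.inr p)) =>
    refine ri_cd ?_
    exact U.H129.smC_pdm (h1.sD p.1) p.2.1 p.2.2.1 p.2.2.2.1

theorem pdm_zero_of {U : Set (V n)} (hU : IsOpen U) {M : MC n N} (h : ∀ x ∈ U, M x = 0) {x : V n}
    (hx : x ∈ U) (i : Fin n) : pdm i M x = 0 := by
  ext a b
  have h1 : (fun y => M y a b) =ᶠ[𝓝 x] fun _ => (0 : ℂ) :=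
    Filter.eventually_of_mem (hU.mem_nhds hx) fun y hy => by
      show M y a b = 0
      rw [h y hy]; rfl
  show pd i (fun y => M y a b) x = 0
  unfold pd
  rw [h1.fderiv_eq]
  simp

theorem fam_NrmN (h : NrmN k ε d G) : FamZ (fm d) G := by
  have h1 := h.rp.rl
  refine ⟨h.oG, h.b1, fm_sm h, fun i x hx hx' => ?_⟩
  have hx2 : x ∉ Gᶜ := fun hc => hc hx
  match i with
  | .inl p =>
    show d.s₂ x p.1 p.2 - d.s₁ x p.1 p.2 = 0
    rw [h1.os x hx' hx2, sub_self]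
  | .inr (.inl p) =>
    show ri p.2.2 ((d.P₂ x - d.P₁ x) p.1 p.2.1) = 0
    rw [h1.oP x hx' hx2, sub_self]
    exact ri_zero _
  | .inr (.inr (.inl p)) =>
    show ri p.2.2.2 (d.D p.1 x p.2.1 p.2.2.1) = 0
    rw [h1.oD p.1 x hx' hx2]
    exact ri_zero _
  | .inr (.inr (.inr p)) =>
    show ri p.2.2.2.2 (pdm p.2.1 (d.D p.1) x p.2.2.1 p.2.2.2.1) = 0
    have h2 : ∀ y ∈ G ∩ Eb (0 : V n) 24, d.D p.1 y = 0 := fun y hy =>
      h1.oD p.1 y hy.2 fun hc => hc hy.1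
    rw [pdm_zero_of (h.oG.inter (isOpen_Eb _ _)) h2 ⟨hx, hx'⟩]
    exact ri_zero _

/-! ### control -/

theorem ct_s (h : NrmN k ε d G) (i j : Fin n) :
    Ctl (fm d) 0 fun x => ((d.s₂ x i j - d.s₁ x i j : ℝ) : ℂ) :=
  Ctl.base (fm_sm h) (.inl (i, j))

theorem ct_P (h : NrmN k ε d G) : CtM (fm d) 0 fun x => d.P₂ x - d.P₁ x := fun a b =>
  Ctl.cx (fm_sm h) (.inr (.inl (a, b, true))) (.inr (.inl (a, b, false))) (fun _ => rfl)
    fun _ => rfl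

theorem ct_D (h : NrmN k ε d G) (c : Fin n) : CtM (fm d) 0 (d.D c) := fun a b =>
  Ctl.cx (fm_sm h) (.inr (.inr (.inl (c, a, b, true)))) (.inr (.inr (.inl (c, a, b, false))))
    (fun _ => rfl) fun _ => rfl

theorem ct_Z (h : NrmN k ε d G) (i j : Fin n) :
    CtM (fm d) 0 (Zt d.s₁ d.s₂ d.P₁ d.P₂ i j) := by
  have h1 := h.rp.rl
  have h2 := (CtM.smulC (ct_s h i j) h1.d₂.sP).add ((ct_P h).smul (h1.d₁.ss i j))
  have e : Zt d.s₁ d.s₂ d.P₁ d.P₂ i j = fun x => ((d.s₂ x i j - d.s₁ x i j : ℝ) : ℂ) • d.P₂ x +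
      (d.s₁ x i j : ℂ) • (d.P₂ x - d.P₁ x) := by
    funext x
    unfold Zt TP
    rw [Complex.ofReal_sub, sub_smul, smul_sub]
    abel
  rw [e]
  exact h2

theorem smC_const_entry {M : MC n N} (h : ∀ a b, ContDiff ℝ ∞ fun x => M x a b) : SmC M := h

/-- The right hand side of the gauge identity. -/
theorem ct_Q (h : NrmN k ε d G) (b : Fin n) : CtM (fm d) 2 fun x => -∑ a,
    (∑ j, pdm j (fun y => ∑ i, Zt d.s₁ d.s₂ d.P₁ d.P₂ j i y * pdm i (d.Y a) y) x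
      + ∑ i, pdm i (fun y => ∑ j, TP d.s₂ d.P₂ i j y * pdm j (d.D a) y) x
      + ∑ i, kp d.s₂ d.G₂ i x * pdm i (d.D a) x) * d.Γ a b x := by
  have h1 := h.rp.rl
  refine CtM.neg (CtM.sum fun a _ => CtM.mulR (CtM.add (CtM.add ?_ ?_) ?_) (h.rp.ig.sm a b))
  · refine CtM.mono (k := 1) (by norm_num) (CtM.sum fun j _ => CtM.pdm (CtM.sum fun i _ => ?_) j)
    exact (ct_Z h j i).mulR (U.H129.smC_pdm (h1.sY a) i)
  · refine CtM.sum fun i _ => CtM.pdm (CtM.sum fun j _ => ?_) i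
    exact ((ct_D h a).pdm j).mulL (H420.smC_TP h1.d₂.ss h1.d₂.sP i j)
  · refine CtM.mono (k := 1) (by norm_num) (CtM.sum fun i _ => ?_)
    exact ((ct_D h a).pdm i).mulL (H420.smC_kp h1.d₂.ss h1.d₂.sG i)

theorem Ac_sub : Ac n (4 / 5) 22 ⊆ Eb (0 : V n) 24 := fun x hx => by
  rw [mem_Eb0 (by norm_num)]
  linarith [hx.2]

/-- `G₂ - G₁` is controlled. -/
theorem ct_G (h : NrmN k ε d G) (hgi : ∀ b, ∀ x ∈ Eb (0 : V n) 24,
    Qt d.s₁ d.s₂ d.G₁ d.G₂ b x = -∑ a,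
    (∑ j, pdm j (fun y => ∑ i, Zt d.s₁ d.s₂ d.P₁ d.P₂ j i y * pdm i (d.Y a) y) x
      + ∑ i, pdm i (fun y => ∑ j, TP d.s₂ d.P₂ i j y * pdm j (d.D a) y) x
      + ∑ i, kp d.s₂ d.G₂ i x * pdm i (d.D a) x) * d.Γ a b x) (c : Fin n) :
    CtM (fm d) 2 fun x => d.G₂ c x - d.G₁ c x := by
  have h1 := h.rp.rl
  have hR : CtM (fm d) 2 fun x => ∑ b, (d.τ x c b : ℂ) • ((-∑ a,
    (∑ j, pdm j (fun y => ∑ i, Zt d.s₁ d.s₂ d.P₁ d.P₂ j i y * pdm i (d.Y a) y) x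
      + ∑ i, pdm i (fun y => ∑ j, TP d.s₂ d.P₂ i j y * pdm j (d.D a) y) x
      + ∑ i, kp d.s₂ d.G₂ i x * pdm i (d.D a) x) * d.Γ a b x) +
      -∑ j, ((d.s₂ x b j - d.s₁ x b j : ℝ) : ℂ) • d.G₂ j x) := by
    refine CtM.sum fun b _ => CtM.smul (CtM.add (ct_Q h b) ?_) (h.rp.st c b)
    exact CtM.neg (CtM.sum fun j _ => CtM.mono (by norm_num)
      (CtM.smulC (ct_s h b j) (h1.d₂.sG j)))
  refine hR.congr (U.H129.smC_sub (h1.d₂.sG c) (h1.d₁.sG c)) (isOpen_Eb (0 : V n) 24) Ac_sub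
    fun x hx => ?_
  have hτ : d.τ x * d.s₁ x = 1 := mul_eq_one_comm.1 (h.rp.it x)
  have e1 : ∀ b, (-∑ a,
    (∑ j, pdm j (fun y => ∑ i, Zt d.s₁ d.s₂ d.P₁ d.P₂ j i y * pdm i (d.Y a) y) x
      + ∑ i, pdm i (fun y => ∑ j, TP d.s₂ d.P₂ i j y * pdm j (d.D a) y) x
      + ∑ i, kp d.s₂ d.G₂ i x * pdm i (d.D a) x) * d.Γ a b x) +
      -∑ j, ((d.s₂ x b j - d.s₁ x b j : ℝ) : ℂ) • d.G₂ j x =
      ∑ j, (d.s₁ x b j : ℂ) • (d.G₂ j x - d.G₁ j x) := by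
    intro b
    rw [← hgi b x hx]
    unfold Qt kp
    rw [← sub_eq_add_neg, ← Finset.sum_sub_distrib, ← Finset.sum_sub_distrib]
    refine Finset.sum_congr rfl fun j _ => ?_
    rw [Complex.ofReal_sub, sub_smul, smul_sub]
    abel
  simp only [e1]
  have e2 : ∑ b, (d.τ x c b : ℂ) • ∑ j, (d.s₁ x b j : ℂ) • (d.G₂ j x - d.G₁ j x) =
      ∑ j, (((d.τ x * d.s₁ x) c j : ℝ) : ℂ) • (d.G₂ j x - d.G₁ j x) := by
    simp only [Finset.smul_sum]
    rw [Finset.sum_comm]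
    refine Finset.sum_congr rfl fun j _ => ?_
    rw [Matrix.mul_apply, Complex.ofReal_sum, Finset.sum_smul]
    refine Finset.sum_congr rfl fun b _ => ?_
    rw [smul_smul, Complex.ofReal_mul]
  rw [e2, hτ, Finset.sum_eq_single c]
  · rw [Matrix.one_apply_eq, Complex.ofReal_one, one_smul]
  · intro j _ hj
    rw [Matrix.one_apply_ne (Ne.symm hj), Complex.ofReal_zero, zero_smul]
  · intro hc
    exact absurd (Finset.mem_univ c) hc

/-- a family which vanishes near a point has vanishing jets there -/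
theorem SJ_zero {f : Ix n N → V n → ℝ} {U : Set (V n)} (hU : IsOpen U)
    (h : ∀ x ∈ U, ∀ i, f i x = 0) (m : ℕ) {x : V n} (hx : x ∈ U) : SJ f m x = 0 := by
  unfold SJ
  refine Finset.sum_eq_zero fun i _ => Finset.sum_eq_zero fun l _ => ?_
  have e : f i =ᶠ[𝓝 x] fun _ => (0 : ℝ) :=
    Filter.eventually_of_mem (hU.mem_nhds hx) fun y hy => h y hy i
  rw [(Filter.EventuallyEq.iteratedFDeriv (𝕜 := ℝ) e l).eq_of_nhds]
  have : iteratedFDeriv ℝ l (fun _ : V n => (0 : ℝ)) = 0 := iteratedFDeriv_zero_fun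
  rw [this]
  simp

theorem neg_fam (hn : 1 ≤ n) (h : NrmN k ε d G) (hct : ∀ c, CtM (fm d) 2 fun x => d.G₂ c x - d.G₁ c x)
    (hneg : ∀ δ : ℝ, 0 < δ → ∃ x ∈ Eb (e0 n) δ, ¬EqA d x) (δ : ℝ) (hδ : 0 < δ) :
    ∃ x ∈ Eb (e0 n) δ, ∃ i, fm d i x ≠ 0 := by
  by_contra hcon
  push Not at hcon
  obtain ⟨x, hx, hne⟩ := hneg (min δ (1 / 10)) (lt_min hδ (by norm_num))
  have hx' : HY.sq (x - e0 n) < (min δ (1 / 10)) ^ 2 := hx
  have hp : (0 : ℝ) ≤ min δ (1 / 10) := le_min hδ.le (by norm_num)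
  have hx1 : x ∈ Eb (e0 n) δ := by
    show HY.sq (x - e0 n) < δ ^ 2
    exact hx'.trans_le (pow_le_pow_left₀ hp (min_le_left _ _) 2)
  have hr : √(HY.sq (x - e0 n)) ≤ 1 / 10 := by
    refine Real.sqrt_le_iff.2 ⟨by norm_num, ?_⟩
    exact hx'.le.trans (pow_le_pow_left₀ hp (min_le_right _ _) 2)
  have hA : x ∈ Ac n (4 / 5) 22 := by
    have h2 := rt_sub x (e0 n)
    have h3 := rt_sub (e0 n) x
    have h4 : HY.sq (e0 n - x) = HY.sq (x - e0 n) := by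
      unfold HY.sq
      refine Finset.sum_congr rfl fun i _ => ?_
      simp only [Pi.sub_apply]
      ring
    rw [h4] at h3
    rw [sq_e0 hn, Real.sqrt_one] at h2 h3
    constructor <;> linarith
  have h0 : ∀ y ∈ Eb (e0 n) δ, ∀ i, fm d i y = 0 := hcon
  refine hne ⟨?_, ?_, ?_, ?_⟩
  · ext i j
    exact sub_eq_zero.1 (h0 x hx1 (.inl (i, j)))
  · refine sub_eq_zero.1 ?_
    ext a b
    exact ri_eq_zero fun c => h0 x hx1 (.inr (.inl (a, b, c)))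
  · intro c
    refine sub_eq_zero.1 ?_
    ext a b
    obtain ⟨M, -, hM⟩ := (hct c a b).2 0
    have h5 := hM x hA 0 le_rfl
    rw [SJ_zero (isOpen_Eb _ _) h0 _ hx1, mul_zero, norm_iteratedFDeriv_zero] at h5
    exact norm_le_zero_iff.1 h5
  · intro c
    ext a b
    exact ri_eq_zero fun e => h0 x hx1 (.inr (.inr (.inl (c, a, b, e))))

end

/-- The weighted bounds of the family give those of `F`, with the factor `M`. -/
def Wt (f : Ix n N → V n → ℝ) (J : ℕ) (F : V n → ℂ) (M : ℝ) : Prop :=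
  ∀ (E T : V n → ℝ) (B : ℝ), (∀ x, 0 ≤ E x) → (∀ x, 0 ≤ T x) → 0 ≤ B →
    (∀ i, ∀ l ≤ J + 2, ∀ x ∈ Ac n (4 / 5) 22, ‖iteratedFDeriv ℝ l (f i) x‖ * E x ≤ B * T x) →
    ∀ l ≤ J, ∀ x ∈ Ac n (4 / 5) 22, ‖iteratedFDeriv ℝ l F x‖ * E x ≤ M * (B * T x)

theorem Wt.mono {f : Ix n N → V n → ℝ} {J : ℕ} {F : V n → ℂ} {M M' : ℝ} (h : Wt f J F M)
    (hM : M ≤ M') : Wt f J F M' := fun E T B hE hT hB h1 l hl x hx =>
  (h E T B hE hT hB h1 l hl x hx).trans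
    (mul_le_mul_of_nonneg_right hM (mul_nonneg hB (hT x)))

/-- a controlled function inherits the weighted bounds -/
theorem wt_ctl {f : Ix n N → V n → ℝ} {k : ℕ} {F : V n → ℂ} (h : Ctl f k F) (hk : k ≤ 2) (J : ℕ) :
    ∃ M : ℝ, 0 ≤ M ∧ Wt f J F M := by
  obtain ⟨M, hM, h1⟩ := h.2 J
  refine ⟨M * (Fintype.card (Ix n N) * (J + 3)), by positivity,
    fun E T B hE _ _ hB l hl x hx => ?_⟩
  have h2 : SJ f (J + k) x ≤ SJ f (J + 2) x := SJ_mono f (by omega) x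
  have h3 : SJ f (J + 2) x * E x ≤ Fintype.card (Ix n N) * (J + 3) * (B * T x) := by
    unfold SJ
    rw [Finset.sum_mul]
    calc ∑ i, (∑ l ∈ Finset.range (J + 2 + 1), ‖iteratedFDeriv ℝ l (f i) x‖) * E x
        ≤ ∑ _i : Ix n N, ((J + 3 : ℕ) : ℝ) * (B * T x) := by
          refine Finset.sum_le_sum fun i _ => ?_
          rw [Finset.sum_mul]
          calc ∑ l ∈ Finset.range (J + 2 + 1), ‖iteratedFDeriv ℝ l (f i) x‖ * E x
              ≤ ∑ _l ∈ Finset.range (J + 2 + 1), B * T x :=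
                Finset.sum_le_sum fun l hl => hB i l (by have := Finset.mem_range.1 hl; omega) x hx
            _ = ((J + 3 : ℕ) : ℝ) * (B * T x) := by
                rw [Finset.sum_const, Finset.card_range, nsmul_eq_mul]
      _ = _ := by
          rw [Finset.sum_const, Finset.card_univ, nsmul_eq_mul]
          push_cast
          ring
  calc ‖iteratedFDeriv ℝ l F x‖ * E x ≤ M * SJ f (J + k) x * E x :=
        mul_le_mul_of_nonneg_right (h1 x hx l hl) (hE x)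
    _ ≤ M * SJ f (J + 2) x * E x :=
        mul_le_mul_of_nonneg_right (mul_le_mul_of_nonneg_left h2 hM) (hE x)
    _ = M * (SJ f (J + 2) x * E x) := by ring
    _ ≤ M * (Fintype.card (Ix n N) * (J + 3) * (B * T x)) := mul_le_mul_of_nonneg_left h3 hM
    _ = _ := by ring

/-- finitely many controlled functions -/
theorem wt_fin {κ : Type*} [Fintype κ] {f : Ix n N → V n → ℝ} {k : ℕ} {F : κ → V n → ℂ}
    (h : ∀ i, Ctl f k (F i)) (hk : k ≤ 2) (J : ℕ) : ∃ M : ℝ, 0 ≤ M ∧ ∀ i, Wt f J (F i) M := by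
  choose M hM0 hM using fun i => wt_ctl (h i) hk J
  exact ⟨∑ i, M i, Finset.sum_nonneg fun i _ => hM0 i, fun i => (hM i).mono
    (Finset.single_le_sum (f := M) (fun i _ => hM0 i) (Finset.mem_univ i))⟩

/-- the constants -/
theorem cst {M Mt C R X Y : ℝ} (hM : 0 ≤ M) (hMt : M ≤ Mt) (hMt1 : 1 ≤ Mt) (hC : 0 ≤ C)
    (hR : 1 ≤ R) (hY : 0 ≤ Y) (h : X ≤ M * (C * R ^ C * Y)) :
    X ≤ Mt * C * R ^ (Mt * C) * Y := by
  have h1 : C ≤ Mt * C := by nlinarith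
  have h2 : R ^ C ≤ R ^ (Mt * C) := Real.rpow_le_rpow_of_exponent_le hR h1
  have h3 : 0 ≤ R ^ C := Real.rpow_nonneg (by linarith) _
  refine h.trans ?_
  calc M * (C * R ^ C * Y) = M * C * (R ^ C * Y) := by ring
    _ ≤ Mt * C * (R ^ (Mt * C) * Y) := by gcongr
    _ = _ := by ring

/-- **Row P1N.** -/
theorem rowP1N_of (hGI : RowXGI) : RowP1N := by
  intro n N hn3 _
  obtain ⟨k, ε, hε, hgi⟩ := hGI n N
  refine ⟨k, ε, hε, fun σ _ hσ1 q s hq hs => ⟨6 * (q + 1) + 24 * (q + 1) ^ 2 / s,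
    fun ν hν J d G hNrm hneg => ?_⟩⟩
  have hn : 1 ≤ n := by omega
  have hid := (hgi (Eb 0 24) Gᶜ d.j₀ d.s₁ d.s₂ d.P₁ d.P₂ d.G₁ d.G₂ d.β d.Y d.D hNrm.rp.rl d.Γ
    hNrm.rp.ig).1
  have hct := fun c => ct_G hNrm hid c
  obtain ⟨C, hC, hsel⟩ := fam hn (show σ ≤ 1 by linarith) hq hs hν (J + 2) (fam_NrmN hNrm)
    (neg_fam hn hNrm hct hneg)
  obtain ⟨MP, hMP, wP⟩ := wt_fin (κ := Fin N × Fin N)
    (F := fun p x => (d.P₂ x - d.P₁ x) p.1 p.2) (fun p => ct_P hNrm p.1 p.2) (by norm_num) J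
  obtain ⟨MD, hMD, wD⟩ := wt_fin (κ := Fin n × Fin N × Fin N)
    (F := fun p x => d.D p.1 x p.2.1 p.2.2) (fun p => ct_D hNrm p.1 p.2.1 p.2.2) (by norm_num) J
  obtain ⟨MG, hMG, wG⟩ := wt_fin (κ := Fin n × Fin N × Fin N)
    (F := fun p x => (d.G₂ p.1 x - d.G₁ p.1 x) p.2.1 p.2.2) (fun p => hct p.1 p.2.1 p.2.2)
    le_rfl J
  obtain ⟨Mt, hMt⟩ : ∃ Mt : ℝ, Mt = 1 + MP + MD + MG := ⟨_, rfl⟩
  have hMt1 : 1 ≤ Mt := by linarith
  refine ⟨Mt * C, by positivity, fun C₀ R₀ η hη => ?_⟩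
  obtain ⟨R, kap, Gs, δ, p, hR0, hR1, h1, h2, h3, h4, h5, h6, h7, h8, h9, h10, h11, h12, h13⟩ :=
    hsel C₀ R₀ η hη
  have hk0 : 0 < kap := by linarith
  have hY : ∀ x : V n, 0 ≤ kap ^ s * δ * Real.exp (-(q * R * |gx n σ x - Gs|)) := fun x => by
    positivity
  have hB : 0 ≤ C * R ^ C * kap ^ s * δ := by positivity
  have h14 : ∀ i, ∀ l ≤ J + 2, ∀ x ∈ Ac n (4 / 5) 22, ‖iteratedFDeriv ℝ l (fm d i) x‖ *
      Real.exp (ν * R * (gx n σ x - Gs)) ≤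
      C * R ^ C * kap ^ s * δ * Real.exp (-(q * R * |gx n σ x - Gs|)) := h13
  have fin : ∀ {M X : ℝ} (x : V n), 0 ≤ M → M ≤ Mt →
      X ≤ M * (C * R ^ C * kap ^ s * δ * Real.exp (-(q * R * |gx n σ x - Gs|))) →
      X ≤ Mt * C * R ^ (Mt * C) * kap ^ s * δ * Real.exp (-(q * R * |gx n σ x - Gs|)) := by
    intro M X x hM0 hM h
    have := cst (X := X) hM0 hM hMt1 hC hR1 (hY x) (h.trans (le_of_eq (by ring)))
    exact this.trans (le_of_eq (by ring))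
  refine ⟨R, kap, Gs, δ, p, hR0, hR1, h1, h2, h3, h4, h5, h6, h7, h8, h9, ?_, h11, h12,
    ?_, ?_, ?_, ?_⟩
  · rw [← fm_sum]; exact h10
  · intro i j l hl x hx
    exact fin x zero_le_one hMt1 ((h14 (.inl (i, j)) l (by omega) x hx).trans
      (le_of_eq (one_mul _).symm))
  · intro a b l hl x hx
    exact fin x hMP (by linarith) (wP (a, b) _ _ _ (fun _ => (Real.exp_pos _).le)
      (fun _ => (Real.exp_pos _).le) hB h14 l hl x hx)
  · intro i a b l hl x hx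
    exact fin x hMD (by linarith) (wD (i, a, b) _ _ _ (fun _ => (Real.exp_pos _).le)
      (fun _ => (Real.exp_pos _).le) hB h14 l hl x hx)
  · intro i a b l hl x hx
    exact fin x hMG (by linarith) (wG (i, a, b) _ _ _ (fun _ => (Real.exp_pos _).le)
      (fun _ => (Real.exp_pos _).le) hB h14 l hl x hx)

theorem rowP1N : RowP1N := rowP1N_of H420.rowXGI

end Vale.Agent.P088.S4.H341
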